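import Vale.Agent.P150.Weak.Defs
import Vale.Agent.P150.Gap.Poincare

/-!
Derivatives of Gibbs averages and joint cumulants in the fields and couplings, their elementary
bounds, symmetries and traces, and their continuity.
-/

open MeasureTheory Finset

namespace Vale.Agent.P150.Weak

open Gap

variable {m : ℕ}

lemma ev_sub (J : Mat m) (u : Vec m) (f g : Conf m → ℝ) :
    ev J u (fun x => f x - g x) = ev J u f - ev J u g := by
  simp only [ev, mul_sub, sum_sub_distrib]

lemma ev_mul_const (J : Mat m) (u : Vec m) (f : Conf m → ℝ) (c : ℝ) :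
    ev J u (fun x => f x * c) = ev J u f * c := by
  rw [ev, ev, sum_mul]
  exact sum_congr rfl fun x _ => (mul_assoc _ _ _).symm

lemma abs_ev_le {J : Mat m} {u : Vec m} {f : Conf m → ℝ} {B : ℝ} (h : ∀ x, |f x| ≤ B) :
    |ev J u f| ≤ B := by
  refine (abs_sum_le_sum_abs _ _).trans ?_
  calc ∑ x, |mu J u x * f x| ≤ ∑ x, mu J u x * B := sum_le_sum fun x _ => by
        rw [abs_mul, abs_of_pos (mu_pos J u x)]
        exact mul_le_mul_of_nonneg_left (h x) (mu_pos J u x).le
    _ = B := by rw [← sum_mul, sum_mu, one_mul]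

lemma ev_nonneg {J : Mat m} {u : Vec m} {f : Conf m → ℝ} (h : ∀ x, 0 ≤ f x) : 0 ≤ ev J u f :=
  sum_nonneg fun x _ => mul_nonneg (mu_pos J u x).le (h x)

lemma spin_sq' (x : Conf m) (i : Fin m) : spin x i ^ 2 = 1 := by
  unfold spin; split_ifs <;> norm_num

lemma abs_spin' (x : Conf m) (i : Fin m) : |spin x i| = 1 := by
  unfold spin; split_ifs <;> norm_num

/-- The derivative of a Gibbs average along a path of exponents. -/
lemma hasDerivAt_ev {J : ℝ → Mat m} {u : ℝ → Vec m} {e : Conf m → ℝ} {t : ℝ}
    (h : ∀ x, HasDerivAt (fun s => expo (J s) (u s) x) (e x) t) (f : Conf m → ℝ) :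
    HasDerivAt (fun s => ev (J s) (u s) f)
      (ev (J t) (u t) (fun x => f x * e x) - ev (J t) (u t) f * ev (J t) (u t) e) t := by
  have hev : ∀ (K : Mat m) (v : Vec m) (φ : Conf m → ℝ),
      ev K v φ = (∑ x, Real.exp (expo K v x) * φ x) / ∑ x, Real.exp (expo K v x) := fun K v φ => by
    simp only [ev, mu, wt]
    rw [sum_div]
    exact sum_congr rfl fun x _ => div_mul_eq_mul_div _ _ _
  have hZ : (∑ x : Conf m, Real.exp (expo (J t) (u t) x)) ≠ 0 :=
    (sum_pos (fun x _ => Real.exp_pos _) univ_nonempty).ne'
  simp only [hev]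
  refine ((HasDerivAt.fun_sum fun x _ => ((h x).exp).mul_const (f x)).div
    (HasDerivAt.fun_sum fun x _ => (h x).exp) hZ).congr_deriv ?_
  simp only [fun x => mul_right_comm (Real.exp (expo (J t) (u t) x)) (e x) (f x), mul_assoc]
  field_simp

/-- The derivative of a Gibbs average in the field of one site. -/
lemma hasDerivAt_ev_field (J : Mat m) (u : Vec m) (k : Fin m) (f : Conf m → ℝ) (t : ℝ) :
    HasDerivAt (fun s => ev J (Function.update u k s) f)
      (ev J (Function.update u k t) (fun x => f x * spin x k) -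
        ev J (Function.update u k t) f * mg J (Function.update u k t) k) t := by
  refine hasDerivAt_ev (J := fun _ => J) (u := fun s => Function.update u k s)
    (e := fun x => spin x k) (fun x => ?_) f
  have e : ∀ s, expo J (Function.update u k s) x = expo J u x + (s - u k) * spin x k := fun s => by
    have : ∀ i, Function.update u k s i * spin x i =
        u i * spin x i + if i = k then (s - u k) * spin x k else 0 := fun i => by
      by_cases hi : i = k
      · subst hi; simp; ring
      · simp [hi]
    simp only [expo, this, sum_add_distrib, sum_ite_eq', mem_univ, if_true]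
    ring
  rw [funext e]
  simpa using (((hasDerivAt_id t).sub_const (u k)).mul_const (spin x k)).const_add (expo J u x)

lemma cm2_eq (J : Mat m) (u : Vec m) (i j : Fin m) :
    cm2 J u i j = ev J u (fun x => spin x i * spin x j) - mg J u i * mg J u j := by
  have e : (fun x => csp J u i x * csp J u j x) = fun x =>
      spin x i * spin x j - mg J u j * spin x i - mg J u i * spin x j + mg J u i * mg J u j := by
    funext x; simp only [csp]; ring
  rw [cm2, e]
  simp only [ev_add, ev_sub, ev_smul, ev_const]
  simp only [mg]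
  ring

lemma cm3_eq (J : Mat m) (u : Vec m) (i j k : Fin m) :
    cm3 J u i j k = ev J u (fun x => spin x i * spin x j * spin x k)
      - mg J u i * ev J u (fun x => spin x j * spin x k)
      - mg J u j * ev J u (fun x => spin x i * spin x k)
      - mg J u k * ev J u (fun x => spin x i * spin x j)
      + 2 * (mg J u i * mg J u j * mg J u k) := by
  have e : (fun x => csp J u i x * csp J u j x * csp J u k x) = fun x =>
      spin x i * spin x j * spin x k - mg J u i * (spin x j * spin x k)
      - mg J u j * (spin x i * spin x k) - mg J u k * (spin x i * spin x j)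
      + mg J u i * mg J u j * spin x k + mg J u i * mg J u k * spin x j
      + mg J u j * mg J u k * spin x i - mg J u i * mg J u j * mg J u k := by
    funext x; simp only [csp]; ring
  rw [cm3, e]
  simp only [ev_add, ev_sub, ev_smul, ev_const]
  simp only [mg]
  ring

lemma hasDerivAt_mg (J : Mat m) (u : Vec m) (i k : Fin m) (t : ℝ) :
    HasDerivAt (fun s => mg J (Function.update u k s) i) (cm2 J (Function.update u k t) i k) t := by
  refine (hasDerivAt_ev_field J u k (fun x => spin x i) t).congr_deriv ?_
  rw [cm2_eq]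
  rfl

lemma hasDerivAt_cm2 (J : Mat m) (u : Vec m) (i j k : Fin m) (t : ℝ) :
    HasDerivAt (fun s => cm2 J (Function.update u k s) i j)
      (cm3 J (Function.update u k t) i j k) t := by
  simp only [cm2_eq]
  refine ((hasDerivAt_ev_field J u k (fun x => spin x i * spin x j) t).sub
    ((hasDerivAt_mg J u i k t).mul (hasDerivAt_mg J u j k t))).congr_deriv ?_
  simp only [cm3_eq, cm2_eq]
  ring

lemma cm4_eq (J : Mat m) (u : Vec m) (i j k l : Fin m) :
    cm4 J u i j k l = ev J u (fun x => spin x i * spin x j * spin x k * spin x l)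
      - mg J u i * ev J u (fun x => spin x j * spin x k * spin x l)
      - mg J u j * ev J u (fun x => spin x i * spin x k * spin x l)
      - mg J u k * ev J u (fun x => spin x i * spin x j * spin x l)
      - mg J u l * ev J u (fun x => spin x i * spin x j * spin x k)
      + mg J u i * mg J u j * ev J u (fun x => spin x k * spin x l)
      + mg J u i * mg J u k * ev J u (fun x => spin x j * spin x l)
      + mg J u i * mg J u l * ev J u (fun x => spin x j * spin x k)
      + mg J u j * mg J u k * ev J u (fun x => spin x i * spin x l)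
      + mg J u j * mg J u l * ev J u (fun x => spin x i * spin x k)
      + mg J u k * mg J u l * ev J u (fun x => spin x i * spin x j)
      - 3 * (mg J u i * mg J u j * mg J u k * mg J u l)
      - cm2 J u i j * cm2 J u k l - cm2 J u i k * cm2 J u j l - cm2 J u i l * cm2 J u j k := by
  have e : (fun x => csp J u i x * csp J u j x * csp J u k x * csp J u l x) = fun x =>
      spin x i * spin x j * spin x k * spin x l
      - mg J u i * (spin x j * spin x k * spin x l) - mg J u j * (spin x i * spin x k * spin x l)
      - mg J u k * (spin x i * spin x j * spin x l) - mg J u l * (spin x i * spin x j * spin x k)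
      + mg J u i * mg J u j * (spin x k * spin x l) + mg J u i * mg J u k * (spin x j * spin x l)
      + mg J u i * mg J u l * (spin x j * spin x k) + mg J u j * mg J u k * (spin x i * spin x l)
      + mg J u j * mg J u l * (spin x i * spin x k) + mg J u k * mg J u l * (spin x i * spin x j)
      - mg J u i * mg J u j * mg J u k * spin x l - mg J u i * mg J u j * mg J u l * spin x k
      - mg J u i * mg J u k * mg J u l * spin x j - mg J u j * mg J u k * mg J u l * spin x i
      + mg J u i * mg J u j * mg J u k * mg J u l := by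
    funext x; simp only [csp]; ring
  rw [cm4, e]
  simp only [ev_add, ev_sub, ev_smul, ev_const]
  simp only [mg]
  ring

lemma hasDerivAt_cm3 (J : Mat m) (u : Vec m) (i j k l : Fin m) (t : ℝ) :
    HasDerivAt (fun s => cm3 J (Function.update u l s) i j k)
      (cm4 J (Function.update u l t) i j k l) t := by
  simp only [cm3_eq]
  have d := fun f => hasDerivAt_ev_field J u l f t
  have M := fun a => hasDerivAt_mg J u a l t
  refine (((((d fun x => spin x i * spin x j * spin x k).sub
    ((M i).mul (d fun x => spin x j * spin x k))).sub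
    ((M j).mul (d fun x => spin x i * spin x k))).sub
    ((M k).mul (d fun x => spin x i * spin x j))).add
    ((((M i).mul (M j)).mul (M k)).const_mul 2)).congr_deriv ?_
  simp only [cm4_eq, cm2_eq, Pi.mul_apply]
  ring

lemma abs_mg_le (J : Mat m) (u : Vec m) (i : Fin m) : |mg J u i| ≤ 1 :=
  abs_ev_le fun x => (abs_spin' x i).le

lemma abs_csp_le (J : Mat m) (u : Vec m) (i : Fin m) (x : Conf m) : |csp J u i x| ≤ 2 :=
  (abs_sub _ _).trans (by linarith [abs_spin' x i, abs_mg_le J u i])

lemma abs_cm2_le (J : Mat m) (u : Vec m) (i j : Fin m) : |cm2 J u i j| ≤ 4 :=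
  abs_ev_le fun x => by
    rw [abs_mul]
    nlinarith [abs_csp_le J u i x, abs_csp_le J u j x, abs_nonneg (csp J u i x),
      abs_nonneg (csp J u j x)]

lemma abs_cm3_le (J : Mat m) (u : Vec m) (i j k : Fin m) : |cm3 J u i j k| ≤ 8 :=
  abs_ev_le fun x => by
    rw [abs_mul, abs_mul]
    calc |csp J u i x| * |csp J u j x| * |csp J u k x| ≤ 2 * 2 * 2 := by
          gcongr <;> exact abs_csp_le ..
      _ = 8 := by norm_num

lemma abs_cm4_le (J : Mat m) (u : Vec m) (i j k l : Fin m) : |cm4 J u i j k l| ≤ 64 := by
  have h4 : |ev J u fun x => csp J u i x * csp J u j x * csp J u k x * csp J u l x| ≤ 16 :=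
    abs_ev_le fun x => by
      rw [abs_mul, abs_mul, abs_mul]
      calc |csp J u i x| * |csp J u j x| * |csp J u k x| * |csp J u l x| ≤ 2 * 2 * 2 * 2 := by
            gcongr <;> exact abs_csp_le ..
        _ = 16 := by norm_num
  have h2 : ∀ a b c d : Fin m, |cm2 J u a b * cm2 J u c d| ≤ 16 := fun a b c d => by
    rw [abs_mul]
    nlinarith [abs_cm2_le J u a b, abs_cm2_le J u c d, abs_nonneg (cm2 J u a b),
      abs_nonneg (cm2 J u c d)]
  simp only [cm4]
  refine (abs_sub _ _).trans ?_
  linarith [abs_sub ((ev J u fun x => csp J u i x * csp J u j x * csp J u k x * csp J u l x) -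
    cm2 J u i j * cm2 J u k l) (cm2 J u i k * cm2 J u j l),
    abs_sub (ev J u fun x => csp J u i x * csp J u j x * csp J u k x * csp J u l x)
      (cm2 J u i j * cm2 J u k l), h2 i j k l, h2 i k j l, h2 i l j k]

lemma cm2_comm (J : Mat m) (u : Vec m) (i j : Fin m) : cm2 J u i j = cm2 J u j i := by
  simp only [cm2, mul_comm]

lemma cm3_swap12 (J : Mat m) (u : Vec m) (i j k : Fin m) : cm3 J u i j k = cm3 J u j i k := by
  simp only [cm3, mul_comm (csp J u i _)]

lemma cm3_swap23 (J : Mat m) (u : Vec m) (i j k : Fin m) : cm3 J u i j k = cm3 J u i k j := by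
  simp only [cm3, mul_right_comm]

lemma cm2_diag (J : Mat m) (u : Vec m) (i : Fin m) : cm2 J u i i = vw J u i := by
  rw [cm2_eq, vw]
  simp only [← sq, spin_sq', ev_const]

lemma cm3_diag (J : Mat m) (u : Vec m) (i j : Fin m) :
    cm3 J u i i j = -2 * mg J u i * cm2 J u i j := by
  simp only [cm3_eq, cm2_eq, ← sq, spin_sq', one_mul, ev_const]
  simp only [mg]
  ring

/-- `Σ_a T_aaj = -2 v_j`. -/
lemma sum_cm3_diag (J : Mat m) (u : Vec m) (j : Fin m) :
    ∑ a, cm3 J u a a j = -2 * vv J u j := by
  simp only [cm3_diag, vv, mul_sum, cm2_comm J u j]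
  exact sum_congr rfl fun a _ => by ring

lemma abs_mg_lt (J : Mat m) (u : Vec m) (i : Fin m) : |mg J u i| < 1 := by
  rw [abs_lt]
  obtain ⟨x, hx⟩ : ∃ x : Conf m, spin x i = 1 := ⟨fun _ => true, by simp [spin]⟩
  obtain ⟨y, hy⟩ : ∃ y : Conf m, spin y i = -1 := ⟨fun _ => false, by simp [spin]⟩
  have h1 : ev J u (fun _ => (-1 : ℝ)) < mg J u i :=
    sum_lt_sum (fun z _ => mul_le_mul_of_nonneg_left (abs_le.1 (abs_spin' z i).le).1 (mu_pos J u z).le)
      ⟨x, mem_univ x, by simp only [hx]; nlinarith [mu_pos J u x]⟩
  have h2 : mg J u i < ev J u (fun _ => (1 : ℝ)) :=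
    sum_lt_sum (fun z _ => mul_le_mul_of_nonneg_left (abs_le.1 (abs_spin' z i).le).2 (mu_pos J u z).le)
      ⟨y, mem_univ y, by simp only [hy]; nlinarith [mu_pos J u y]⟩
  rw [ev_const] at h1 h2
  exact ⟨h1, h2⟩

lemma vw_pos (J : Mat m) (u : Vec m) (i : Fin m) : 0 < vw J u i := by
  have := (sq_lt_one_iff_abs_lt_one _).2 (abs_mg_lt J u i)
  unfold vw; linarith

lemma vw_le_one (J : Mat m) (u : Vec m) (i : Fin m) : vw J u i ≤ 1 := by
  unfold vw; linarith [sq_nonneg (mg J u i)]

lemma hasDerivAt_vv (J : Mat m) (u : Vec m) (i k : Fin m) (t : ℝ) :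
    HasDerivAt (fun s => vv J (Function.update u k s) i)
      (gradV J (Function.update u k t) i k) t := by
  simp only [vv]
  refine (HasDerivAt.fun_sum fun j _ =>
    (hasDerivAt_cm2 J u i j k t).mul (hasDerivAt_mg J u j k t)).congr_deriv ?_
  simp only [gradV, app, ← sum_add_distrib]
  refine sum_congr rfl fun j _ => ?_
  rw [cm3_swap12 J _ i j k]
  ring

/-- `Σ_a T4_aajk = -2 ∂_k v_j`. -/
lemma sum_cm4_diag (J : Mat m) (u : Vec m) (j k : Fin m) :
    ∑ a, cm4 J u a a j k = -2 * gradV J u j k := by
  have h1 := HasDerivAt.fun_sum (u := univ) fun a _ => hasDerivAt_cm3 J u a a j k (u k)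
  simp only [sum_cm3_diag, Function.update_eq_self] at h1
  have h2 := (hasDerivAt_vv J u j k (u k)).const_mul (-2)
  rw [Function.update_eq_self] at h2
  exact h1.unique h2

/-- `cm2` is positive semidefinite. -/
lemma cm2_quad (J : Mat m) (u : Vec m) (a : Vec m) :
    ∑ i, ∑ j, cm2 J u i j * a i * a j = ev J u fun x => (∑ i, a i * csp J u i x) ^ 2 := by
  simp only [cm2, sq, sum_mul_sum, ev_sum, ← ev_mul_const]
  exact sum_congr rfl fun i _ => sum_congr rfl fun j _ => congrArg _ (funext fun x => by ring)

lemma continuous_ev (f : Conf m → ℝ) :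
    Continuous fun q : Mat m × Vec m => ev q.1 q.2 f := by
  simp only [ev, mu, wt, expo]
  refine continuous_finsetSum _ fun x _ => (Continuous.div₀ (by fun_prop) (by fun_prop) fun q =>
    (sum_pos (fun y _ => Real.exp_pos _) univ_nonempty).ne').mul continuous_const

lemma continuous_mg (i : Fin m) : Continuous fun q : Mat m × Vec m => mg q.1 q.2 i :=
  continuous_ev _

lemma continuous_cm2 (i j : Fin m) : Continuous fun q : Mat m × Vec m => cm2 q.1 q.2 i j := by
  simp only [cm2_eq]
  exact (continuous_ev _).sub ((continuous_mg i).mul (continuous_mg j))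

lemma continuous_cm3 (i j k : Fin m) :
    Continuous fun q : Mat m × Vec m => cm3 q.1 q.2 i j k := by
  simp only [cm3_eq]
  have e := fun f => continuous_ev (m := m) f
  have g := fun a => continuous_mg (m := m) a
  fun_prop

lemma continuous_cm4 (i j k l : Fin m) :
    Continuous fun q : Mat m × Vec m => cm4 q.1 q.2 i j k l := by
  simp only [cm4_eq]
  have e := fun f => continuous_ev (m := m) f
  have g := fun a => continuous_mg (m := m) a
  have c := fun a b => continuous_cm2 (m := m) a b
  fun_prop

end Vale.Agent.P150.Weak
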