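import Vale.Agent.P150.Weak.Found.Deriv

/-!
One-spin slices: the cumulants of `m + 1` spins in terms of those of the subsystem without the spin
`i` at the fields `h ± J_i`. Here `d = del i mg`, `bar` the half sum and `del` the half difference.
-/

open MeasureTheory Finset

namespace Vale.Agent.P150.Weak

open Gap

variable {m : ℕ}

lemma isCoupling_plJ (v : ℝ) (g : Idx m → ℝ) : IsCoupling (plJ v g) := by
  constructor
  · intro a c
    by_cases h : a = c
    · subst h; rfl
    · simp only [plJ, if_neg h, if_neg (Ne.symm h)]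
      congr 2
      unfold Gap.sym
      rcases lt_or_gt_of_ne h with h' | h' <;> simp [h', h'.not_gt]
  · intro a; simp [plJ]

lemma spin_insertNth_self (i : Fin (m + 1)) (s : Bool) (y : Conf m) :
    spin (Fin.insertNth i s y : Conf (m + 1)) i = if s then 1 else -1 := by simp [spin]

lemma spin_insertNth (i : Fin (m + 1)) (s : Bool) (y : Conf m) (a : Fin m) :
    spin (Fin.insertNth i s y : Conf (m + 1)) (i.succAbove a) = spin y a := by simp [spin]

lemma sum_split (i : Fin (m + 1)) (F : Conf (m + 1) → ℝ) :
    ∑ x, F x = ∑ y : Conf m, F (Fin.insertNth i true y) + ∑ y : Conf m, F (Fin.insertNth i false y) := by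
  rw [← Equiv.sum_comp (Fin.insertNthEquiv (fun _ => Bool) i), Fintype.sum_prod_type, Fintype.sum_bool]
  rfl

lemma expo_insertNth {J : Mat (m + 1)} (hJ : IsCoupling J) (u : Vec (m + 1)) (i : Fin (m + 1))
    (s : Bool) (y : Conf m) :
    expo J u (Fin.insertNth i s y) = (if s then (1:ℝ) else -1) * u i +
      expo (sub i J) (subU i u + (if s then (1:ℝ) else -1) • rowOf i J) y := by
  set c : ℝ := if s then 1 else -1
  have e : ∀ a, J (i.succAbove a) i = J i (i.succAbove a) := fun a => hJ.symm _ _
  have h2 : (∑ a, J i (i.succAbove a) * c * spin y a) = ∑ a, c * rowOf i J a * spin y a :=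
    sum_congr rfl fun a _ => by simp only [rowOf]; ring
  have h3 : (∑ a, J i (i.succAbove a) * spin y a * c) = ∑ a, c * rowOf i J a * spin y a :=
    sum_congr rfl fun a _ => by simp only [rowOf]; ring
  simp only [expo, Fin.sum_univ_succAbove _ i, spin_insertNth_self, spin_insertNth, e, hJ.diag,
    sum_add_distrib, Pi.add_apply, Pi.smul_apply, smul_eq_mul, add_mul, zero_mul, zero_add]
  simp only [subU, sub] at *
  rw [h2, h3]
  ring

/-- The weight of the spin value `+1`. -/
noncomputable def wPlus (i : Fin (m + 1)) (J : Mat (m + 1)) (u : Vec (m + 1)) : ℝ :=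
  (1 + mg J u i) / 2

/-- A Gibbs average split by the value of the spin `i`. -/
theorem ev_split {J : Mat (m + 1)} (hJ : IsCoupling J) (u : Vec (m + 1)) (i : Fin (m + 1))
    (f : Conf (m + 1) → ℝ) :
    ev J u f =
      (1 + mg J u i) / 2 *
        ev (sub i J) (subU i u + rowOf i J) (fun y => f (Fin.insertNth i true y)) +
      (1 - mg J u i) / 2 *
        ev (sub i J) (subU i u - rowOf i J) (fun y => f (Fin.insertNth i false y)) := by
  set P := ∑ y : Conf m, wt (sub i J) (subU i u + rowOf i J) y with hP
  set M := ∑ y : Conf m, wt (sub i J) (subU i u - rowOf i J) y with hM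
  have hP0 : 0 < P := sum_pos (fun y _ => wt_pos _ _ y) univ_nonempty
  have hM0 : 0 < M := sum_pos (fun y _ => wt_pos _ _ y) univ_nonempty
  set ep := Real.exp (u i)
  set em := Real.exp (-u i)
  have hwp : ∀ y, wt J u (Fin.insertNth i true y) = ep * wt (sub i J) (subU i u + rowOf i J) y :=
    fun y => by simp [wt, expo_insertNth hJ, Real.exp_add, ep]
  have hwm : ∀ y, wt J u (Fin.insertNth i false y) = em * wt (sub i J) (subU i u - rowOf i J) y :=
    fun y => by simp [wt, expo_insertNth hJ, Real.exp_add, em, sub_eq_add_neg]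
  have hep : 0 < ep := Real.exp_pos _
  have hem : 0 < em := Real.exp_pos _
  have key : ∀ φ : Conf (m + 1) → ℝ, ev J u φ =
      (ep * P * ev (sub i J) (subU i u + rowOf i J) (fun y => φ (Fin.insertNth i true y)) +
        em * M * ev (sub i J) (subU i u - rowOf i J) (fun y => φ (Fin.insertNth i false y))) /
        (ep * P + em * M) := by
    intro φ
    have hden : ∑ x, wt J u x = ep * P + em * M := by
      rw [sum_split i]; simp only [hwp, hwm, ← mul_sum]; rfl
    simp only [ev, mu, hden, div_mul_eq_mul_div, ← sum_div, ← hP, ← hM]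
    rw [sum_split i]
    simp only [hwp, hwm, mul_assoc, ← mul_sum]
    field_simp
  have hm : mg J u i = (ep * P - em * M) / (ep * P + em * M) := by
    simp only [mg, key]
    simp only [spin_insertNth_self, if_true, Bool.false_eq_true, if_false, ev_const]
    ring
  rw [key, hm]
  field_simp
  ring

lemma ev_rest {J : Mat (m + 1)} (hJ : IsCoupling J) (u : Vec (m + 1)) (i : Fin (m + 1))
    (φ : Conf m → ℝ) :
    ev J u (fun x => φ fun a => x (i.succAbove a)) =
      (1 + mg J u i) / 2 * ev (sub i J) (subU i u + rowOf i J) φ +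
      (1 - mg J u i) / 2 * ev (sub i J) (subU i u - rowOf i J) φ := by
  simp [ev_split hJ u i]

lemma ev_self_rest {J : Mat (m + 1)} (hJ : IsCoupling J) (u : Vec (m + 1)) (i : Fin (m + 1))
    (φ : Conf m → ℝ) :
    ev J u (fun x => spin x i * φ fun a => x (i.succAbove a)) =
      (1 + mg J u i) / 2 * ev (sub i J) (subU i u + rowOf i J) φ -
      (1 - mg J u i) / 2 * ev (sub i J) (subU i u - rowOf i J) φ := by
  rw [ev_split hJ u i]
  simp only [spin_insertNth_self, Fin.insertNth_apply_succAbove, if_true, Bool.false_eq_true,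
    if_false, ev_smul]
  ring

variable {J : Mat (m + 1)} (hJ : IsCoupling J) (u : Vec (m + 1)) (i : Fin (m + 1))

include hJ

/-- `m_rest = bar m + m_i d`. -/
theorem mg_rest (a : Fin m) :
    mg J u (i.succAbove a) = bar i mg J u a + mg J u i * del i mg J u a := by
  have := ev_rest hJ u i fun y => spin y a
  simp only [bar, del, Pi.smul_apply, Pi.add_apply, Pi.sub_apply, smul_eq_mul]
  simp only [mg] at this ⊢
  rw [show (fun x : Conf (m + 1) => spin x (i.succAbove a)) =
    fun x => spin (fun c => x (i.succAbove c)) a from rfl, this]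
  ring

/-- `C_ia = w_i d_a`. -/
theorem cm2_self_rest (a : Fin m) :
    cm2 J u i (i.succAbove a) = vw J u i * del i mg J u a := by
  have h1 := ev_self_rest hJ u i fun y => spin y a
  have h2 := ev_rest hJ u i fun y => spin y a
  simp only [cm2_eq, del, Pi.smul_apply, Pi.sub_apply, smul_eq_mul, vw]
  simp only [mg] at h1 h2 ⊢
  rw [show (fun x : Conf (m + 1) => spin x i * spin x (i.succAbove a)) =
    fun x => spin x i * spin (fun c => x (i.succAbove c)) a from rfl, h1,
    show (fun x : Conf (m + 1) => spin x (i.succAbove a)) =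
    fun x => spin (fun c => x (i.succAbove c)) a from rfl, h2]
  ring

/-- `C_rest = bar C + m_i del C + w_i d d'`. -/
theorem cm2_rest (a c : Fin m) :
    cm2 J u (i.succAbove a) (i.succAbove c) = bar i cm2 J u a c + mg J u i * del i cm2 J u a c +
      vw J u i * (del i mg J u a * del i mg J u c) := by
  have h : ev J u (fun x => spin x (i.succAbove a) * spin x (i.succAbove c)) = _ :=
    ev_rest hJ u i fun y => spin y a * spin y c
  simp only [cm2_eq, bar, del, Pi.smul_apply, Pi.add_apply, Pi.sub_apply, smul_eq_mul, vw,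
    mg_rest hJ]
  rw [h]
  ring

/-- `T_iia = -2 m_i w_i d_a`. -/
theorem cm3_self_self (a : Fin m) :
    cm3 J u i i (i.succAbove a) = -2 * mg J u i * vw J u i * del i mg J u a := by
  rw [cm3_diag, cm2_self_rest hJ]; ring

/-- `T_iab = w_i (del C_ab - 2 m_i d_a d_b)`. -/
theorem cm3_self_rest (a c : Fin m) :
    cm3 J u i (i.succAbove a) (i.succAbove c) =
      vw J u i * (del i cm2 J u a c - 2 * mg J u i * (del i mg J u a * del i mg J u c)) := by
  have e1 : ∀ p, ev J u (fun x => spin x i * spin x (i.succAbove p)) = _ :=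
    fun p => ev_self_rest hJ u i fun y => spin y p
  have e2 : ev J u (fun x => spin x (i.succAbove a) * spin x (i.succAbove c)) = _ :=
    ev_rest hJ u i fun y => spin y a * spin y c
  have e3 : ev J u (fun x => spin x i * (spin x (i.succAbove a) * spin x (i.succAbove c))) = _ :=
    ev_self_rest hJ u i fun y => spin y a * spin y c
  simp only [cm3_eq, mul_assoc (spin _ i), e1, e2, e3]
  simp only [cm2_eq, bar, del, Pi.smul_apply, Pi.add_apply, Pi.sub_apply, smul_eq_mul, vw,
    mg_rest hJ]
  simp only [mg]
  ring

/-- The rest block of the third cumulant. -/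
theorem cm3_rest (a c e : Fin m) :
    cm3 J u (i.succAbove a) (i.succAbove c) (i.succAbove e) =
      bar i cm3 J u a c e + mg J u i * del i cm3 J u a c e +
      vw J u i * (del i mg J u a * del i cm2 J u c e + del i mg J u c * del i cm2 J u a e +
        del i mg J u e * del i cm2 J u a c) -
      2 * mg J u i * vw J u i * (del i mg J u a * del i mg J u c * del i mg J u e) := by
  have e2 : ∀ p q, ev J u (fun x => spin x (i.succAbove p) * spin x (i.succAbove q)) = _ :=
    fun p q => ev_rest hJ u i fun y => spin y p * spin y q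
  have e3 : ev J u (fun x => spin x (i.succAbove a) * spin x (i.succAbove c) *
      spin x (i.succAbove e)) = _ :=
    ev_rest hJ u i fun y => spin y a * spin y c * spin y e
  simp only [cm3_eq, e2, e3]
  simp only [cm3_eq, cm2_eq, bar, del, Pi.smul_apply, Pi.add_apply, Pi.sub_apply, smul_eq_mul, vw,
    mg_rest hJ]
  ring

set_option maxRecDepth 10000 in
/-- The slice `T4_iabe`. -/
theorem cm4_self_rest (a c e : Fin m) :
    cm4 J u i (i.succAbove a) (i.succAbove c) (i.succAbove e) =
      vw J u i * del i cm3 J u a c e -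
      2 * mg J u i * vw J u i * (del i mg J u a * del i cm2 J u c e +
        del i mg J u c * del i cm2 J u a e + del i mg J u e * del i cm2 J u a c) +
      (4 * mg J u i ^ 2 * vw J u i - 2 * vw J u i ^ 2) *
        (del i mg J u a * del i mg J u c * del i mg J u e) := by
  have e1 : ∀ p, ev J u (fun x => spin x i * spin x (i.succAbove p)) = _ :=
    fun p => ev_self_rest hJ u i fun y => spin y p
  have e2 : ∀ p q, ev J u (fun x => spin x (i.succAbove p) * spin x (i.succAbove q)) = _ :=
    fun p q => ev_rest hJ u i fun y => spin y p * spin y q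
  have e3 : ∀ p q, ev J u (fun x => spin x i * (spin x (i.succAbove p) * spin x (i.succAbove q))) =
      _ := fun p q => ev_self_rest hJ u i fun y => spin y p * spin y q
  have e4 : ev J u (fun x => spin x (i.succAbove a) * spin x (i.succAbove c) *
      spin x (i.succAbove e)) = _ :=
    ev_rest hJ u i fun y => spin y a * spin y c * spin y e
  have e5 : ev J u (fun x => spin x i *
      (spin x (i.succAbove a) * spin x (i.succAbove c) * spin x (i.succAbove e))) = _ :=
    ev_self_rest hJ u i fun y => spin y a * spin y c * spin y e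
  have r3 : ∀ p q, (fun x : Conf (m + 1) => spin x i * spin x (i.succAbove p) * spin x (i.succAbove q))
      = fun x => spin x i * (spin x (i.succAbove p) * spin x (i.succAbove q)) :=
    fun p q => funext fun x => mul_assoc _ _ _
  have r5 : (fun x : Conf (m + 1) => spin x i * spin x (i.succAbove a) * spin x (i.succAbove c) *
      spin x (i.succAbove e)) = fun x => spin x i *
      (spin x (i.succAbove a) * spin x (i.succAbove c) * spin x (i.succAbove e)) :=
    funext fun x => by ring
  simp only [cm4_eq, r3, r5, e1, e2, e3, e4, e5]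
  simp only [cm3_eq, cm2_eq, e1, e2, bar, del, Pi.smul_apply, Pi.add_apply, Pi.sub_apply,
    smul_eq_mul, vw, mg_rest hJ]
  simp only [show ∀ (K : Mat m) (v : Vec m) (p : Fin m),
    (ev K v fun y => spin y p) = mg K v p from fun _ _ _ => rfl]
  ring

set_option maxRecDepth 10000 in
/-- The slice `T4_iiac`. -/
theorem cm4_self_self_rest (a c : Fin m) :
    cm4 J u i i (i.succAbove a) (i.succAbove c) =
      -2 * mg J u i * vw J u i * del i cm2 J u a c +
      (4 * mg J u i ^ 2 * vw J u i - 2 * vw J u i ^ 2) * (del i mg J u a * del i mg J u c) := by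
  have e1 : ∀ p, ev J u (fun x => spin x i * spin x (i.succAbove p)) = _ :=
    fun p => ev_self_rest hJ u i fun y => spin y p
  have e2 : ev J u (fun x => spin x (i.succAbove a) * spin x (i.succAbove c)) = _ :=
    ev_rest hJ u i fun y => spin y a * spin y c
  have e3 : ev J u (fun x => spin x i * (spin x (i.succAbove a) * spin x (i.succAbove c))) = _ :=
    ev_self_rest hJ u i fun y => spin y a * spin y c
  simp only [cm4_eq, ← sq, spin_sq', one_mul, mul_assoc (spin _ i), e1, e2, e3, ev_const]
  simp only [show ∀ p, (ev J u fun x => spin x p) = mg J u p from fun _ => rfl]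
  simp only [cm2_eq, ← sq, spin_sq', ev_const, e1, e2, bar, del, Pi.smul_apply, Pi.add_apply,
    Pi.sub_apply, smul_eq_mul, vw, mg_rest hJ]
  simp only [show ∀ (K : Mat m) (v : Vec m) (p : Fin m),
    (ev K v fun y => spin y p) = mg K v p from fun _ _ _ => rfl]
  ring

/-- `v_i = w_i (m_i (1 + |d|²) + bar m · d)`. -/
theorem vv_self :
    vv J u i = vw J u i * (mg J u i * (1 + sq1 (del i mg J u)) +
      ∑ a, bar i mg J u a * del i mg J u a) := by
  rw [vv, Fin.sum_univ_succAbove _ i, cm2_diag,
    sum_congr rfl fun a _ => congrArg₂ (· * ·) (cm2_self_rest hJ u i a) (mg_rest hJ u i a)]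
  unfold sq1
  rw [mul_add, mul_add, mul_one, mul_add, mul_sum, mul_sum, mul_sum, add_assoc, ← sum_add_distrib]
  congr 1
  exact sum_congr rfl fun a _ => by ring

omit hJ in
/-- The half difference of `|m|² / 2` is `bar m · d`. -/
theorem del_half_sq :
    del i (fun J u => sq1 (mg J u) / 2) J u = ∑ a, bar i mg J u a * del i mg J u a := by
  simp only [del, bar, Pi.smul_apply, Pi.add_apply, Pi.sub_apply, smul_eq_mul, sq1, sum_div, ← sum_sub_distrib, mul_sum]
  exact sum_congr rfl fun a _ => by ring

end Vale.Agent.P150.Weak
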