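import Vale.Agent.P150.Weak.Defs
import Vale.Agent.P150.Gap.Goe
import Vale.Agent.P146.Tilt

/-!
Splitting the disorder at a spin: the disorder of `m + 1` spins is the disorder of the other `m`
spins, the row of the spin and its field. A row added to the fields gives again a planted system.
-/

open MeasureTheory ProbabilityTheory Finset

namespace Vale.Agent.P150.Weak

open Gap

variable {m : ℕ}

/-- The pair of the old spins `a < c`. -/
def edgeUp (i : Fin (m + 1)) (e : Edge m) : Edge (m + 1) :=
  ⟨(i.succAbove e.1.1, i.succAbove e.1.2), Fin.strictMono_succAbove i e.2⟩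

/-- The pair of the spin `i` and the old spin `a`. -/
def edgeAt (i : Fin (m + 1)) (a : Fin m) : Edge (m + 1) :=
  if h : i < i.succAbove a then ⟨(i, i.succAbove a), h⟩
  else ⟨(i.succAbove a, i), lt_of_le_of_ne (not_lt.1 h) (Fin.succAbove_ne i a)⟩

/-- The new indices in terms of the old ones, the row and the field. -/
def idxAt (i : Fin (m + 1)) : Idx m ⊕ (Fin m ⊕ Unit) → Idx (m + 1)
  | .inl (.inl e) => .inl (edgeUp i e)
  | .inl (.inr a) => .inr (i.succAbove a)
  | .inr (.inl a) => .inl (edgeAt i a)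
  | .inr (.inr _) => .inr i

lemma edgeAt_mem (i : Fin (m + 1)) (a : Fin m) :
    ((edgeAt i a).1.1 = i ∧ (edgeAt i a).1.2 = i.succAbove a) ∨
      ((edgeAt i a).1.1 = i.succAbove a ∧ (edgeAt i a).1.2 = i) := by
  unfold edgeAt; split_ifs <;> simp

lemma edgeUp_ne (i : Fin (m + 1)) (e : Edge m) (a : Fin m) : edgeUp i e ≠ edgeAt i a := by
  intro h
  rcases edgeAt_mem i a with ⟨h1, _⟩ | ⟨_, h2⟩
  · exact Fin.succAbove_ne i e.1.1 ((congrArg (fun x : Edge (m + 1) => x.1.1) h).trans h1)
  · exact Fin.succAbove_ne i e.1.2 ((congrArg (fun x : Edge (m + 1) => x.1.2) h).trans h2)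

lemma edgeUp_injective (i : Fin (m + 1)) : Function.Injective (edgeUp i) := fun e e' h => by
  have h1 := congrArg (fun x : Edge (m + 1) => x.1.1) h
  have h2 := congrArg (fun x : Edge (m + 1) => x.1.2) h
  exact Subtype.ext (Prod.ext (Fin.succAbove_right_injective h1) (Fin.succAbove_right_injective h2))

lemma edgeAt_injective (i : Fin (m + 1)) : Function.Injective (edgeAt i) := fun a a' h => by
  have h1 := congrArg (fun x : Edge (m + 1) => x.1.1) h
  have h2 := congrArg (fun x : Edge (m + 1) => x.1.2) h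
  rcases edgeAt_mem i a with ⟨p, q⟩ | ⟨p, q⟩ <;> rcases edgeAt_mem i a' with ⟨p', q'⟩ | ⟨p', q'⟩ <;>
    simp only [p, q, p', q'] at h1 h2
  · exact Fin.succAbove_right_injective h2
  · exact absurd h2 (Fin.succAbove_ne i a)
  · exact absurd h1 (Fin.succAbove_ne i a)
  · exact Fin.succAbove_right_injective h1

lemma idxAt_bijective (i : Fin (m + 1)) : Function.Bijective (idxAt i) := by
  rw [Fintype.bijective_iff_injective_and_card]
  constructor
  · rintro ((e | a) | (a | ⟨⟩)) ((e' | a') | (a' | ⟨⟩)) h <;>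
      simp only [idxAt, Sum.inl.injEq, Sum.inr.injEq, reduceCtorEq] at h
    · rw [edgeUp_injective i h]
    · exact absurd h (edgeUp_ne i e a')
    · rw [Fin.succAbove_right_injective h]
    · exact absurd h (Fin.succAbove_ne i a)
    · exact absurd h.symm (edgeUp_ne i e' a)
    · rw [edgeAt_injective i h]
    · exact absurd h.symm (Fin.succAbove_ne i a')
    · rfl
  · have h1 := card_edge_mul_two m
    have h2 := card_edge_mul_two (m + 1)
    have h3 : (Fintype.card (Edge (m + 1)) : ℝ) = (Fintype.card (Edge m) : ℝ) + m := by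
      push_cast at h2; linarith
    have h4 : Fintype.card (Edge (m + 1)) = Fintype.card (Edge m) + m := by exact_mod_cast h3
    simp only [Fintype.card_sum, Fintype.card_fin, Fintype.card_unit]
    omega

/-- The new indices, as an equivalence. -/
noncomputable def idxEquiv (i : Fin (m + 1)) : Idx m ⊕ (Fin m ⊕ Unit) ≃ Idx (m + 1) :=
  Equiv.ofBijective (idxAt i) (idxAt_bijective i)

/-- The disorder with sub-disorder `g`, row `r` and field `t`. -/
noncomputable def join (i : Fin (m + 1)) (g : Idx m → ℝ) (r : Fin m → ℝ) (t : ℝ) :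
    Idx (m + 1) → ℝ :=
  fun k => Sum.elim g (Sum.elim r fun _ => t) ((idxEquiv i).symm k)

lemma join_apply (i : Fin (m + 1)) (g : Idx m → ℝ) (r : Fin m → ℝ) (t : ℝ)
    (k : Idx m ⊕ (Fin m ⊕ Unit)) :
    join i g r t (idxAt i k) = Sum.elim g (Sum.elim r fun _ => t) k := by
  show Sum.elim g (Sum.elim r fun _ => t) ((idxEquiv i).symm (idxEquiv i k)) = _
  rw [Equiv.symm_apply_apply]

lemma sym_edge {n : ℕ} (f : Edge n → ℝ) (e : Edge n) : sym f e.1.1 e.1.2 = f e :=
  sym_of_lt f e.2

lemma sub_plJ (v : ℝ) (i : Fin (m + 1)) (g : Idx m → ℝ) (r : Fin m → ℝ) (t : ℝ) :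
    sub i (plJ v (join i g r t)) = plJ v g := by
  funext a c
  simp only [sub, plJ, Fin.succAbove_right_injective.eq_iff]
  split_ifs with h
  · rfl
  congr 2
  rcases lt_or_gt_of_ne h with h' | h'
  · rw [sym_of_lt _ (Fin.strictMono_succAbove i h'), sym_of_lt _ h']
    exact join_apply i g r t (.inl (.inl ⟨(a, c), h'⟩))
  · rw [sym_comm _ (i.succAbove a), sym_comm _ a,
      sym_of_lt _ (Fin.strictMono_succAbove i h'), sym_of_lt _ h']
    exact join_apply i g r t (.inl (.inl ⟨(c, a), h'⟩))

lemma rowOf_plJ (v : ℝ) (i : Fin (m + 1)) (g : Idx m → ℝ) (r : Fin m → ℝ) (t : ℝ) :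
    rowOf i (plJ v (join i g r t)) = fun a => v + √v * r a := by
  funext a
  simp only [rowOf, plJ, if_neg (Fin.succAbove_ne i a).symm]
  have h := join_apply i g r t (.inr (.inl a))
  simp only [idxAt, Sum.elim_inr, Sum.elim_inl] at h
  have e : sym (fun e => join i g r t (.inl e)) i (i.succAbove a) =
      sym (fun e => join i g r t (.inl e)) (edgeAt i a).1.1 (edgeAt i a).1.2 := by
    rcases edgeAt_mem i a with ⟨p, q⟩ | ⟨p, q⟩
    · rw [p, q]
    · rw [p, q, sym_comm]
  rw [e, sym_edge, h]

lemma subU_plU (τ : ℝ) (i : Fin (m + 1)) (g : Idx m → ℝ) (r : Fin m → ℝ) (t : ℝ) :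
    subU i (plU τ (join i g r t)) = plU τ g := by
  funext a
  simp only [subU, plU]
  congr 2
  exact join_apply i g r t (.inl (.inr a))

lemma plU_self (τ : ℝ) (i : Fin (m + 1)) (g : Idx m → ℝ) (r : Fin m → ℝ) (t : ℝ) :
    plU τ (join i g r t) i = τ + √τ * t := by
  simp only [plU]
  congr 2
  exact join_apply i g r t (.inr (.inr ()))

lemma measurePreserving_join (i : Fin (m + 1)) :
    MeasurePreserving (fun q : (Idx m → ℝ) × ((Fin m → ℝ) × ℝ) => join i q.1 q.2.1 q.2.2)
      ((gauss (Idx m)).prod ((gauss (Fin m)).prod (gaussianReal 0 1))) (gauss (Idx (m + 1))) := by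
  have h1 := (measurePreserving_funUnique (gaussianReal 0 1) Unit).symm
  have h2 := (measurePreserving_sumPiEquivProdPi fun _ : Fin m ⊕ Unit => gaussianReal 0 1).symm
  have h3 := (measurePreserving_sumPiEquivProdPi fun _ : Idx m ⊕ (Fin m ⊕ Unit) =>
    gaussianReal 0 1).symm
  have h4 := gauss_reindex (idxEquiv i).symm
  have h := (h4.comp h3).comp ((MeasurePreserving.id (gauss (Idx m))).prod
    (h2.comp ((MeasurePreserving.id (gauss (Fin m))).prod h1)))
  convert h using 1
  funext q k
  simp only [join, Function.comp_apply, Prod.map, id_eq]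
  generalize (idxEquiv i).symm k = l
  rcases l with a | a | a <;> rfl

/-- The planted expectation split at the spin `i`. -/
theorem pEv_split {b : ℝ} {n : ℕ} {τ : ℝ} (i : Fin (m + 1)) {F : Mat (m + 1) → Vec (m + 1) → ℝ}
    (hF : Integrable (fun g => F (plJ (b ^ 2 / n) g) (plU τ g)) (gauss (Idx (m + 1)))) :
    pEv b n (m + 1) τ F = ∫ g, ∫ r, ∫ t,
      F (plJ (b ^ 2 / n) (join i g r t)) (plU τ (join i g r t))
        ∂gaussianReal 0 1 ∂gauss (Fin m) ∂gauss (Idx m) := by
  have h := measurePreserving_join i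
  have hi := h.integrable_comp_of_integrable hF
  simp only [Function.comp_def] at hi
  rw [pEv]
  refine ((integral_comp_mp h hF.aestronglyMeasurable).symm.trans (integral_prod _ hi)).trans ?_
  refine integral_congr_ae ?_
  filter_upwards [hi.prod_right_ae] with g hg
  exact integral_prod _ hg

/-- Adding an independent planted row to the fields raises `τ` by the pair variance. -/
theorem pEv_shift {b : ℝ} {n : ℕ} {τ : ℝ} (hτ : 0 ≤ τ) {φ : Mat m → Vec m → ℝ}
    (hφ : Continuous fun q : Mat m × Vec m => φ q.1 q.2)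
    (hi : Integrable (fun q : (Idx m → ℝ) × (Fin m → ℝ) => φ (plJ (b ^ 2 / n) q.1)
      (plU τ q.1 + fun a => b ^ 2 / n + √(b ^ 2 / n) * q.2 a))
      ((gauss (Idx m)).prod (gauss (Fin m)))) :
    ∫ g, ∫ r, φ (plJ (b ^ 2 / n) g) (plU τ g + fun a => b ^ 2 / n + √(b ^ 2 / n) * r a)
        ∂gauss (Fin m) ∂gauss (Idx m) =
      pEv b n m (τ + b ^ 2 / n) φ := by
  set v := b ^ 2 / (n:ℝ) with hv
  have hv0 : 0 ≤ v := by positivity
  rw [← integral_prod (fun q : (Idx m → ℝ) × (Fin m → ℝ) =>
    φ (plJ v q.1) (plU τ q.1 + fun a => v + √v * q.2 a)) hi, pEv]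
  rcases (add_nonneg hτ hv0).eq_or_lt with h0 | hpos
  · have hτ0 : τ = 0 := by linarith
    have hv1 : v = 0 := by linarith
    simp only [hτ0, hv1, Real.sqrt_zero, zero_mul, add_zero, ← hv]
    rw [integral_fun_fst (μ := gauss (Idx m)) (ν := gauss (Fin m)) fun g =>
      φ (plJ 0 g) (plU 0 g + fun _ => 0), probReal_univ, one_smul]
    exact integral_congr_ae (ae_of_all _ fun g => by
      dsimp only
      congr 1
      funext a
      simp)
  set c := √(τ + v) with hc
  have hc0 : 0 < c := Real.sqrt_pos.2 hpos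
  let T : (Idx m → ℝ) × (Fin m → ℝ) → Idx m → ℝ := fun q =>
    Sum.elim (fun e => q.1 (.inl e)) fun a => (√τ * q.1 (.inr a) + √v * q.2 a) / c
  have hT : MeasurePreserving T ((gauss (Idx m)).prod (gauss (Fin m))) (gauss (Idx m)) := by
    have hsum := (measurePreserving_sumPiEquivProdPi fun _ : Idx m => gaussianReal 0 1)
    have h3 := (measurePreserving_sumPiEquivProdPi fun _ : Idx m => gaussianReal 0 1).symm
    have hassoc : MeasurePreserving (MeasurableEquiv.prodAssoc (α := Edge m → ℝ)
        (β := Fin m → ℝ) (γ := Fin m → ℝ))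
        (((gauss (Edge m)).prod (gauss (Fin m))).prod (gauss (Fin m)))
        ((gauss (Edge m)).prod ((gauss (Fin m)).prod (gauss (Fin m)))) :=
      measurePreserving_prodAssoc _ _ _
    have hmix : MeasurePreserving (fun p : (Fin m → ℝ) × (Fin m → ℝ) =>
        fun a => (√τ * p.1 a + √v * p.2 a) / c)
        ((gauss (Fin m)).prod (gauss (Fin m))) (gauss (Fin m)) := by
      have hone : MeasurePreserving (fun p : ℝ × ℝ => (√τ * p.1 + √v * p.2) / c)
          ((gaussianReal 0 1).prod (gaussianReal 0 1)) (gaussianReal 0 1) := by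
        refine ⟨by fun_prop, ?_⟩
        have h1 := gaussianReal_map_const_mul (μ := 0) (v := 1) (√τ / c)
        have h2 := gaussianReal_map_const_mul (μ := 0) (v := 1) (√v / c)
        have e : (fun p : ℝ × ℝ => (√τ * p.1 + √v * p.2) / c) =
            (fun p : ℝ × ℝ => p.1 + p.2) ∘ Prod.map (fun x => √τ / c * x) fun x => √v / c * x := by
          funext p; simp only [Function.comp_apply, Prod.map]; ring
        rw [e, ← Measure.map_map (by fun_prop) (by fun_prop),
          ← Measure.map_prod_map _ _ (by fun_prop) (by fun_prop), h1, h2]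
        show (gaussianReal _ _) ∗ (gaussianReal _ _) = _
        rw [gaussianReal_conv_gaussianReal]
        congr 1
        · ring
        · refine NNReal.eq ?_
          push_cast
          rw [div_pow, div_pow, Real.sq_sqrt hτ, Real.sq_sqrt hv0, hc, Real.sq_sqrt hpos.le]
          field_simp
      have hpi := measurePreserving_pi (fun _ : Fin m => (gaussianReal 0 1).prod (gaussianReal 0 1))
        (fun _ : Fin m => gaussianReal 0 1) fun _ => hone
      have harr := (measurePreserving_arrowProdEquivProdArrow ℝ ℝ (Fin m)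
        (fun _ => gaussianReal 0 1) (fun _ => gaussianReal 0 1)).symm
      exact hpi.comp harr
    have h := h3.comp (((MeasurePreserving.id (gauss (Edge m))).prod hmix).comp
      (hassoc.comp (hsum.prod (MeasurePreserving.id (gauss (Fin m))))))
    convert h using 1
    · funext q k
      rcases k with e | a <;> rfl
    all_goals rfl
  have hcont : Continuous fun g : Idx m → ℝ => φ (plJ v g) (plU (τ + v) g) := by
    refine hφ.comp (f := fun g : Idx m → ℝ => (plJ v g, plU (τ + v) g)) (Continuous.prodMk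
      (continuous_pi fun i => continuous_pi fun j => ?_) (by unfold plU; fun_prop))
    unfold plJ sym
    split_ifs <;> fun_prop
  rw [← integral_comp_mp hT hcont.aestronglyMeasurable]
  refine integral_congr_ae (ae_of_all _ fun q => ?_)
  show φ (plJ v q.1) (plU τ q.1 + fun a => v + √v * q.2 a) = φ (plJ v (T q)) (plU (τ + v) (T q))
  have e1 : plJ v (T q) = plJ v q.1 := rfl
  have e2 : plU (τ + v) (T q) = plU τ q.1 + fun a => v + √v * q.2 a := by
    funext a
    simp only [plU, T, Pi.add_apply, Sum.elim_inr, ← hc]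
    field_simp
    ring
  rw [e1, e2]

@[fun_prop]
lemma continuous_plJ (v : ℝ) : Continuous fun g : Idx m → ℝ => plJ v g := by
  refine continuous_pi fun i => continuous_pi fun j => ?_
  unfold plJ Gap.sym
  split_ifs <;> fun_prop

@[fun_prop]
lemma continuous_plU (τ : ℝ) : Continuous fun g : Idx m → ℝ => plU τ g := by
  unfold plU; fun_prop

/-- Bounded continuous observables of the planted family are integrable. -/
lemma integrable_planted {F : Mat m → Vec m → ℝ}
    (hF : Continuous fun q : Mat m × Vec m => F q.1 q.2) {B : ℝ} (hB : ∀ J u, |F J u| ≤ B)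
    (v τ : ℝ) : Integrable (fun g => F (plJ v g) (plU τ g)) (gauss (Idx m)) :=
  integrable_gauss_bound (hF.comp (f := fun g : Idx m → ℝ => (plJ v g, plU τ g)) (by fun_prop))
    fun g => hB _ _

end Vale.Agent.P150.Weak
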